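import Mathlib

/-!
Group algebras of central extensions of unique product groups are directly finite.
-/

namespace Vale.Agent.P194.Central

variable {R : Type} [CommRing R] {G : Type} [Group G] (Z : Subgroup G) [Z.Normal]

/-- The component of a basis element in its coset. -/
noncomputable def part (g : G) : Z :=
  ⟨((QuotientGroup.mk g : G ⧸ Z).out)⁻¹ * g,
    QuotientGroup.eq.1 (Quotient.out_eq (QuotientGroup.mk g : G ⧸ Z))⟩

/-- Coset components. -/
noncomputable def compF (x : MonoidAlgebra R G) : (G ⧸ Z) →₀ MonoidAlgebra R Z :=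
  x.coeff.sum fun g r => Finsupp.single (QuotientGroup.mk g) (MonoidAlgebra.single (part Z g) r)

/-- Embedding of the algebra of the central subgroup. -/
noncomputable def incl : MonoidAlgebra R Z →+* MonoidAlgebra R G :=
  MonoidAlgebra.mapDomainRingHom R Z.subtype

/-- Reassembling a component. -/
noncomputable def emb (q : G ⧸ Z) (c : MonoidAlgebra R Z) : MonoidAlgebra R G :=
  MonoidAlgebra.single q.out 1 * incl Z c

lemma compF_single (g : G) (r : R) :
    compF Z (MonoidAlgebra.single g r)
      = Finsupp.single (QuotientGroup.mk g) (MonoidAlgebra.single (part Z g) r) := by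
  simp [compF, Finsupp.sum_single_index]

lemma compF_add (x y : MonoidAlgebra R G) : compF Z (x + y) = compF Z x + compF Z y := by
  simp only [compF, MonoidAlgebra.coeff_add]
  exact Finsupp.sum_add_index' (fun g => by simp) fun g a b => by simp [Finsupp.single_add]

/-- Coset components as an additive map. -/
noncomputable def compHom : MonoidAlgebra R G →+ ((G ⧸ Z) →₀ MonoidAlgebra R Z) :=
  AddMonoidHom.mk' (compF Z) (compF_add Z)

lemma compHom_single (g : G) (r : R) :
    compHom Z (MonoidAlgebra.single g r)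
      = Finsupp.single (QuotientGroup.mk g) (MonoidAlgebra.single (part Z g) r) := compF_single Z g r

lemma recon (x : MonoidAlgebra R G) : (compHom Z x).sum (emb Z) = x := by
  induction x using MonoidAlgebra.induction_linear with
  | zero => simp
  | add a b ha hb =>
    rw [map_add, Finsupp.sum_add_index' (fun q => by simp [emb])
      (fun q c d => by simp [emb, mul_add]), ha, hb]
  | single g r =>
    rw [compHom_single, Finsupp.sum_single_index (by simp [emb])]
    simp [emb, incl, MonoidAlgebra.single_mul_single, part]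

lemma compHom_mul_incl (g : G) (c : MonoidAlgebra R Z) :
    compHom Z (MonoidAlgebra.single g 1 * incl Z c)
      = Finsupp.single (QuotientGroup.mk g) (MonoidAlgebra.single (part Z g) 1 * c) := by
  induction c using MonoidAlgebra.induction_linear with
  | zero => simp
  | add a b ha hb => simp only [map_add, mul_add, ha, hb, Finsupp.single_add]
  | single z r =>
    have h1 : (QuotientGroup.mk (g * z) : G ⧸ Z) = QuotientGroup.mk g :=
      QuotientGroup.eq.2 (by simp)
    have h2 : part Z (g * z) = part Z g * z := by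
      apply Subtype.ext
      simp only [part, Subgroup.coe_mul, h1, mul_assoc]
    simp [incl, MonoidAlgebra.single_mul_single, compHom_single, h1, h2]

variable (hZ : Z ≤ Subgroup.center G)

include hZ in
lemma incl_comm (c : MonoidAlgebra R Z) (x : MonoidAlgebra R G) :
    incl Z c * x = x * incl Z c := by
  induction c using MonoidAlgebra.induction_linear with
  | zero => simp
  | add a b ha hb => simp only [map_add, add_mul, mul_add, ha, hb]
  | single z r =>
    induction x using MonoidAlgebra.induction_linear with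
    | zero => simp
    | add a b ha hb => simp only [mul_add, add_mul, ha, hb]
    | single g s =>
      simp [incl, MonoidAlgebra.single_mul_single, mul_comm r s,
        Subgroup.mem_center_iff.1 (hZ z.2) g]

include hZ in
lemma compHom_mul (x y : MonoidAlgebra R G) :
    compHom Z (x * y) = ∑ p ∈ (compHom Z x).support, ∑ q ∈ (compHom Z y).support,
      Finsupp.single (p * q) (MonoidAlgebra.single (part Z (p.out * q.out)) 1
        * (compHom Z x p * compHom Z y q)) := by
  conv_lhs => rw [← recon Z x, ← recon Z y]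
  simp only [Finsupp.sum, Finset.sum_mul, Finset.mul_sum, map_sum]
  rw [Finset.sum_comm]
  refine Finset.sum_congr rfl fun p _ => Finset.sum_congr rfl fun q _ => ?_
  have h : emb Z p (compHom Z x p) * emb Z q (compHom Z y q)
      = MonoidAlgebra.single (p.out * q.out) (1 : R)
        * incl Z (compHom Z x p * compHom Z y q) := by
    simp only [emb, map_mul]
    rw [mul_assoc (MonoidAlgebra.single p.out (1 : R)), ← mul_assoc (incl Z (compHom Z x p)),
      incl_comm Z hZ (compHom Z x p) (MonoidAlgebra.single q.out 1), mul_assoc, ← mul_assoc,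
      MonoidAlgebra.single_mul_single, one_mul]
  rw [h, compHom_mul_incl]
  congr 1
  simp

/-- Direct finiteness for rings whose elements have components in a commutative ring, indexed by
a unique product group and multiplied with unit factors. -/
theorem directlyFinite_of_components {S : Type} [CommRing S] {Q : Type} [Group Q] [UniqueProds Q]
    {A : Type} [Ring A] (φ : A →+ (Q →₀ S)) (u : Q → Q → S) (hu : ∀ p q, IsUnit (u p q))
    (hinj : ∀ x, φ x = 0 → x = 0) (h1 : ∃ q, IsUnit (φ 1 q))
    (hφ : ∀ x y, φ (x * y) = ∑ p ∈ (φ x).support, ∑ q ∈ (φ y).support,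
      Finsupp.single (p * q) (u p q * (φ x p * φ y q)))
    (a b : A) (hab : a * b = 1) : b * a = 1 := by
  classical
  have hmul : ∀ (I J : Ideal S) (x y : A),
      (∀ q, φ x q ∈ I) → (∀ q, φ y q ∈ J) → ∀ r, φ (x * y) r ∈ I * J := by
    intro I J x y hx hy r
    rw [hφ, Finsupp.finsetSum_apply]
    refine sum_mem fun p _ => ?_
    rw [Finsupp.finsetSum_apply]
    refine sum_mem fun q _ => ?_
    rw [Finsupp.single_apply]
    split
    · exact Ideal.mul_mem_left _ _ (Ideal.mul_mem_mul (hx p) (hy q))
    · exact zero_mem _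
  set e := 1 - b * a with he
  have hae : a * e = 0 := by rw [he, mul_sub, ← mul_assoc, hab, one_mul, mul_one, sub_self]
  have hidem : e * e = e := by
    have : b * a * (b * a) = b * a := by rw [mul_assoc, ← mul_assoc a, hab, one_mul]
    rw [he, sub_mul, one_mul, mul_sub, mul_one, this]
    abel
  have hprime : ∀ P : Ideal S, P.IsPrime → ∀ q, φ e q ∈ P := by
    intro P hP
    by_contra hne
    push Not at hne
    obtain ⟨q₀, hq₀⟩ := hne
    obtain ⟨p₀, hp₀⟩ : ∃ p, φ a p ∉ P := by
      by_contra h
      push Not at h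
      obtain ⟨r, hr⟩ := h1
      have h2 : φ (a * b) r ∈ P * (⊤ : Ideal S) :=
        hmul P (⊤ : Ideal S) a b h (fun _ => Submodule.mem_top) r
      rw [hab] at h2
      rw [Ideal.mul_top] at h2
      exact hP.ne_top (Ideal.eq_top_of_isUnit_mem P h2 hr)
    let X := (φ a).support.filter fun p => φ a p ∉ P
    let Y := (φ e).support.filter fun q => φ e q ∉ P
    have hX : X.Nonempty := ⟨p₀, Finset.mem_filter.2
      ⟨Finsupp.mem_support_iff.2 fun h => hp₀ (h ▸ P.zero_mem), hp₀⟩⟩
    have hY : Y.Nonempty := ⟨q₀, Finset.mem_filter.2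
      ⟨Finsupp.mem_support_iff.2 fun h => hq₀ (h ▸ P.zero_mem), hq₀⟩⟩
    obtain ⟨a₀, ha₀, b₀, hb₀, hun⟩ := UniqueProds.uniqueMul_of_nonempty hX hY
    rw [Finset.mem_filter] at ha₀ hb₀
    let π := Ideal.Quotient.mk P
    have h0 : π (φ (a * e) (a₀ * b₀)) = 0 := by simp [hae]
    rw [hφ, Finsupp.finsetSum_apply, map_sum,
      Finset.sum_eq_single a₀ ?_ fun h => absurd ha₀.1 h] at h0
    · rw [Finsupp.finsetSum_apply, map_sum,
        Finset.sum_eq_single b₀ ?_ fun h => absurd hb₀.1 h, Finsupp.single_eq_same,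
        Ideal.Quotient.eq_zero_iff_mem] at h0
      · exact ((hP.mem_or_mem h0).resolve_left
          (fun h => hP.ne_top (Ideal.eq_top_of_isUnit_mem _ h (hu _ _))) |> hP.mem_or_mem).elim
          ha₀.2 hb₀.2
      · intro q hq hne'
        rw [Finsupp.single_apply, if_neg fun h => hne' (mul_left_cancel h), map_zero]
    · intro p hp hne'
      rw [Finsupp.finsetSum_apply, map_sum]
      refine Finset.sum_eq_zero fun q hq => ?_
      rw [Finsupp.single_apply]
      split
      · rename_i h
        by_contra h'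
        rw [Ideal.Quotient.eq_zero_iff_mem] at h'
        have hpX : p ∈ X := Finset.mem_filter.2
          ⟨hp, fun hm => h' (Ideal.mul_mem_left _ _ (Ideal.mul_mem_right _ _ hm))⟩
        have hqY : q ∈ Y := Finset.mem_filter.2
          ⟨hq, fun hm => h' (Ideal.mul_mem_left _ _ (Ideal.mul_mem_left _ _ hm))⟩
        exact hne' (hun hpX hqY h).1
      · exact map_zero _
  let J : Ideal S := Ideal.span ((φ e).support.image (φ e))
  have hJe : ∀ q, φ e q ∈ J := fun q => by
    by_cases h : q ∈ (φ e).support
    · exact Ideal.subset_span (Finset.mem_coe.2 (Finset.mem_image_of_mem _ h))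
    · rw [Finsupp.notMem_support_iff.1 h]; exact J.zero_mem
  obtain ⟨N, hN⟩ : IsNilpotent J := by
    refine (Ideal.FG.isNilpotent_iff_le_nilradical ⟨_, rfl⟩).2 (Ideal.span_le.2 fun c hc => ?_)
    obtain ⟨q, -, rfl⟩ := Finset.mem_image.1 (Finset.mem_coe.1 hc)
    rw [SetLike.mem_coe, nilradical_eq_sInf]
    exact Submodule.mem_sInf.2 fun P hP => hprime P hP q
  have hpow : ∀ k, ∀ r, φ e r ∈ J ^ (k + 1) := by
    intro k
    induction k with
    | zero => simpa using hJe
    | succ k ih =>
      intro r
      have := hmul _ _ e e ih hJe r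
      rwa [hidem, ← pow_succ] at this
  have hz : φ e = 0 := Finsupp.ext fun r => by
    have := Ideal.pow_le_pow_right (Nat.le_succ N) (hpow N r)
    rw [hN] at this
    simpa using this
  exact (sub_eq_zero.1 (hinj e hz)).symm

include hZ in
theorem directlyFinite [UniqueProds (G ⧸ Z)] (a b : MonoidAlgebra R G) (hab : a * b = 1) :
    b * a = 1 := by
  let i : CommGroup Z := { (inferInstance : Group Z) with
    mul_comm := fun u v => Subtype.ext (Subgroup.mem_center_iff.1 (hZ v.2) u) }
  have hu : ∀ z : Z, IsUnit (MonoidAlgebra.single z (1 : R)) := fun z =>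
    (Group.isUnit z).map (MonoidAlgebra.of R Z)
  refine directlyFinite_of_components (compHom Z)
    (fun p q => MonoidAlgebra.single (part Z (p.out * q.out)) 1) (fun p q => hu _)
    (fun x hx => ?_) ⟨QuotientGroup.mk (1 : G), ?_⟩ (compHom_mul Z hZ) a b hab
  · rw [← recon Z x, hx, Finsupp.sum_zero_index]
  · rw [MonoidAlgebra.one_def, compHom_single, Finsupp.single_eq_same]
    exact hu _

/-- Locally indicable groups have unique products. -/
theorem uniqueProds_of_indicable {Q : Type} [Group Q]
    (h : ∀ K : Subgroup Q, K.FG → (∀ ψ : K →* Multiplicative ℤ, ψ = 1) → K = ⊥) :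
    UniqueProds Q := by
  classical
  suffices ∀ n, ∀ A B : Finset Q, A.Nonempty → B.Nonempty → A.card + B.card ≤ n →
      ∃ a₀ ∈ A, ∃ b₀ ∈ B, UniqueMul A B a₀ b₀ from ⟨fun {A B} hA hB => this _ A B hA hB le_rfl⟩
  intro n
  induction n using Nat.strong_induction_on with
  | _ n ih =>
    intro A B ⟨a₁, ha₁⟩ ⟨b₁, hb₁⟩ hn
    let T : Finset Q := A.image (a₁⁻¹ * ·) ∪ B.image (· * b₁⁻¹)
    let K := Subgroup.closure (T : Set Q)
    have hAK : ∀ a ∈ A, a₁⁻¹ * a ∈ K := fun a ha =>
      Subgroup.subset_closure (Finset.mem_union_left _ (Finset.mem_image_of_mem _ ha))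
    have hBK : ∀ b ∈ B, b * b₁⁻¹ ∈ K := fun b hb =>
      Subgroup.subset_closure (Finset.mem_union_right _ (Finset.mem_image_of_mem _ hb))
    by_cases hψ : ∀ ψ : K →* Multiplicative ℤ, ψ = 1
    · have hbot := h K ⟨T, rfl⟩ hψ
      refine ⟨a₁, ha₁, b₁, hb₁, fun a b ha hb _ => ⟨?_, ?_⟩⟩
      · have := hbot ▸ hAK a ha
        exact (inv_mul_eq_one.1 (Subgroup.mem_bot.1 this)).symm
      · have := hbot ▸ hBK b hb
        exact mul_inv_eq_one.1 (Subgroup.mem_bot.1 this)
    · obtain ⟨ψ, hψ'⟩ := not_forall.1 hψ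
      let dA : Q → ℤ := fun a => if ha : a₁⁻¹ * a ∈ K then Multiplicative.toAdd (ψ ⟨_, ha⟩) else 0
      let dB : Q → ℤ := fun b => if hb : b * b₁⁻¹ ∈ K then Multiplicative.toAdd (ψ ⟨_, hb⟩) else 0
      obtain ⟨a₂, ha₂, hA₂⟩ := A.exists_max_image dA ⟨a₁, ha₁⟩
      obtain ⟨b₂, hb₂, hB₂⟩ := B.exists_max_image dB ⟨b₁, hb₁⟩
      let A' := A.filter fun a => dA a = dA a₂
      let B' := B.filter fun b => dB b = dB b₂
      have hlt : A'.card + B'.card < A.card + B.card := by
        by_contra hge
        have hcA : A'.card ≤ A.card := Finset.card_le_card (Finset.filter_subset _ _)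
        have hcB : B'.card ≤ B.card := Finset.card_le_card (Finset.filter_subset _ _)
        have hcA' : A.card ≤ A'.card := by omega
        have hcB' : B.card ≤ B'.card := by omega
        have hAA : A' = A := Finset.eq_of_subset_of_card_le (Finset.filter_subset _ _) hcA'
        have hBB : B' = B := Finset.eq_of_subset_of_card_le (Finset.filter_subset _ _) hcB'
        refine hψ' (MonoidHom.ext fun x => ?_)
        obtain ⟨x, hx⟩ := x
        induction hx using Subgroup.closure_induction with
        | mem y hy =>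
          rcases Finset.mem_union.1 (Finset.mem_coe.1 hy) with hy | hy
          · obtain ⟨a, ha, rfl⟩ := Finset.mem_image.1 hy
            have e1 := (Finset.mem_filter.1 (hAA.symm ▸ ha : a ∈ A')).2
            have e2 := (Finset.mem_filter.1 (hAA.symm ▸ ha₁ : a₁ ∈ A')).2
            have := e1.trans e2.symm
            simp only [dA, dif_pos (hAK a ha), dif_pos (hAK a₁ ha₁)] at this
            have h1 : (⟨a₁⁻¹ * a₁, hAK a₁ ha₁⟩ : K) = 1 := Subtype.ext (inv_mul_cancel a₁)
            rw [h1, map_one] at this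
            exact Multiplicative.toAdd.injective this
          · obtain ⟨b, hb, rfl⟩ := Finset.mem_image.1 hy
            have e1 := (Finset.mem_filter.1 (hBB.symm ▸ hb : b ∈ B')).2
            have e2 := (Finset.mem_filter.1 (hBB.symm ▸ hb₁ : b₁ ∈ B')).2
            have := e1.trans e2.symm
            simp only [dB, dif_pos (hBK b hb), dif_pos (hBK b₁ hb₁)] at this
            have h1 : (⟨b₁ * b₁⁻¹, hBK b₁ hb₁⟩ : K) = 1 := Subtype.ext (mul_inv_cancel b₁)
            rw [h1, map_one] at this
            exact Multiplicative.toAdd.injective this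
        | one => exact map_one ψ
        | mul y z hy hz iy iz =>
          calc ψ (⟨y, hy⟩ * ⟨z, hz⟩) = ψ ⟨y, hy⟩ * ψ ⟨z, hz⟩ := map_mul ψ _ _
            _ = 1 := by simp only [MonoidHom.one_apply] at iy iz ⊢; rw [iy, iz, one_mul]
        | inv y hy iy =>
          calc ψ (⟨y, hy⟩⁻¹) = (ψ ⟨y, hy⟩)⁻¹ := map_inv ψ _
            _ = 1 := by simp only [MonoidHom.one_apply] at iy ⊢; rw [iy, inv_one]
      obtain ⟨a₀, ha₀, b₀, hb₀, hun⟩ := ih _ (lt_of_lt_of_le hlt hn) A' B'
        ⟨a₂, Finset.mem_filter.2 ⟨ha₂, rfl⟩⟩ ⟨b₂, Finset.mem_filter.2 ⟨hb₂, rfl⟩⟩ le_rfl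
      rw [Finset.mem_filter] at ha₀ hb₀
      refine ⟨a₀, ha₀.1, b₀, hb₀.1, fun a b ha hb hab => ?_⟩
      have hd : dA a + dB b = dA a₀ + dB b₀ := by
        have key : ∀ a' (ha' : a' ∈ A) b' (hb' : b' ∈ B), dA a' + dB b' = Multiplicative.toAdd
            (ψ (⟨a₁⁻¹ * a', hAK a' ha'⟩ * ⟨b' * b₁⁻¹, hBK b' hb'⟩)) := by
          intro a' ha' b' hb'
          simp only [dA, dB, dif_pos (hAK a' ha'), dif_pos (hBK b' hb'), map_mul, toAdd_mul]
        rw [key a ha b hb, key a₀ ha₀.1 b₀ hb₀.1]
        refine congrArg _ (congrArg ψ (Subtype.ext ?_))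
        simp only [Subgroup.coe_mul]
        rw [mul_assoc, ← mul_assoc a, hab]
        group
      have h1 := hA₂ a ha
      have h2 := hB₂ b hb
      exact hun (Finset.mem_filter.2 ⟨ha, by omega⟩) (Finset.mem_filter.2 ⟨hb, by omega⟩) hab

end Vale.Agent.P194.Central
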