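import Mathlib

/-!
Idempotent matrices over group algebras and finite normal p-subgroups.
-/

namespace Vale.Agent.P194

open scoped Pointwise

variable {K : Type} [Field K] {G R : Type} [Group G] [Group R] {n : ℕ}

/-- Matrix ring map induced by a group homomorphism. -/
noncomputable def mm (π : G →* R) :
    Matrix (Fin n) (Fin n) (MonoidAlgebra K G) →+* Matrix (Fin n) (Fin n) (MonoidAlgebra K R) :=
  (MonoidAlgebra.mapDomainRingHom K π).mapMatrix

lemma mm_apply (π : G →* R) (A : Matrix (Fin n) (Fin n) (MonoidAlgebra K G)) (i j : Fin n) :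
    ((mm π A) i j).coeff = Finsupp.mapDomain π (A i j).coeff := by
  simp [mm, MonoidAlgebra.mapDomain]

/-- A finite set carrying all supports of the entries. -/
noncomputable def supp (A : Matrix (Fin n) (Fin n) (MonoidAlgebra K G)) : Finset G := by
  classical
  exact Finset.univ.biUnion fun q : Fin n × Fin n => (A q.1 q.2).coeff.support

lemma mm_eq_zero_of_factor {S : Type} [Group S] (π : G →* R) (ψ : G →* S)
    (A : Matrix (Fin n) (Fin n) (MonoidAlgebra K G)) (hA : mm π A = 0)
    (h : ∀ x ∈ supp A, ∀ y ∈ supp A, π x = π y → ψ x = ψ y) : mm ψ A = 0 := by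
  classical
  let φ : R → S := fun r => if hr : ∃ y ∈ supp A, π y = r then ψ hr.choose else 1
  refine Matrix.ext fun i j => MonoidAlgebra.coeff_injective ?_
  have h0 : Finsupp.mapDomain π (A i j).coeff = 0 := by
    rw [← mm_apply, hA]; rfl
  rw [mm_apply]
  have h1 : ∀ x ∈ (A i j).coeff.support, ψ x = (φ ∘ π) x := by
    intro x hx
    have hxS : x ∈ supp A := by
      simp only [supp, Finset.mem_biUnion, Finset.mem_univ, true_and]
      exact ⟨(i, j), hx⟩
    have hr : ∃ y ∈ supp A, π y = π x := ⟨x, hxS, rfl⟩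
    simp only [Function.comp_apply, φ, dif_pos hr]
    exact h _ hxS _ hr.choose_spec.1 hr.choose_spec.2.symm
  rw [Finsupp.mapDomain_congr h1, Finsupp.mapDomain_comp, h0, Finsupp.mapDomain_zero]
  rfl

lemma eq_zero_of_mm_id (A : Matrix (Fin n) (Fin n) (MonoidAlgebra K G))
    (hA : mm (MonoidHom.id G) A = 0) : A = 0 := by
  refine Matrix.ext fun i j => MonoidAlgebra.coeff_injective ?_
  have h0 : Finsupp.mapDomain (MonoidHom.id G) (A i j).coeff = 0 := by
    rw [← mm_apply, hA]; rfl
  rw [MonoidHom.coe_id, Finsupp.mapDomain_id] at h0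
  simpa using h0

lemma mul_eq_zero_of_invariant (π : G →* R) (x v : MonoidAlgebra K G)
    (hx : Finsupp.mapDomain π x.coeff = 0)
    (hv : ∀ h : G, ∀ f ∈ π.ker, v.coeff (h * f⁻¹) = v.coeff h) : x * v = 0 := by
  refine MonoidAlgebra.coeff_injective (Finsupp.ext fun g => ?_)
  rw [MonoidAlgebra.coeff_mul_apply_left]
  let u : R → K := fun r => v.coeff ((Function.invFun π r)⁻¹ * g)
  have hu : ∀ h, v.coeff (h⁻¹ * g) = u (π h) := by
    intro h
    have hh' : π (Function.invFun π (π h)) = π h := Function.invFun_eq ⟨h, rfl⟩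
    have hf : g⁻¹ * h * (Function.invFun π (π h))⁻¹ * g ∈ π.ker := by
      simp [MonoidHom.mem_ker, hh']
    have := hv ((Function.invFun π (π h))⁻¹ * g) _ hf
    show v.coeff (h⁻¹ * g) = v.coeff ((Function.invFun π (π h))⁻¹ * g)
    rw [← this]
    congr 1
    group
  simp only [hu]
  rw [← Finsupp.sum_mapDomain_index (h := fun r c => c * u r) (fun _ => zero_mul _)
    (fun _ _ _ => add_mul _ _ _), hx]
  simp

/-- Scalar matrix with a group element on the diagonal. -/
noncomputable def D (g : G) : Matrix (Fin n) (Fin n) (MonoidAlgebra K G) :=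
  Matrix.diagonal fun _ => MonoidAlgebra.single g (1 : K)

lemma D_one : (D 1 : Matrix (Fin n) (Fin n) (MonoidAlgebra K G)) = 1 := by
  rw [D, ← MonoidAlgebra.one_def, Matrix.diagonal_one]

lemma D_mul (a b : G) :
    (D a * D b : Matrix (Fin n) (Fin n) (MonoidAlgebra K G)) = D (a * b) := by
  rw [D, D, D, Matrix.diagonal_mul_diagonal]
  simp [MonoidAlgebra.single_mul_single]

variable (p : ℕ) [Fact p.Prime] [CharP K p]

lemma idempotent_eq_zero (π : G →* R) [Finite π.ker] (hp : IsPGroup p π.ker)
    (e : Matrix (Fin n) (Fin n) (MonoidAlgebra K G)) (he : e * e = e) (h0 : mm π e = 0) :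
    e = 0 := by
  classical
  have hpX : ∀ x : Matrix (Fin n) (Fin n) (MonoidAlgebra K G), p • x = 0 := by
    intro x
    refine Matrix.ext fun i j => MonoidAlgebra.coeff_injective (Finsupp.ext fun g => ?_)
    rw [Matrix.smul_apply, MonoidAlgebra.coeff_smul, Finsupp.smul_apply, nsmul_eq_mul,
      CharP.cast_eq_zero, zero_mul]; rfl
  letI : Module (ZMod p) (Matrix (Fin n) (Fin n) (MonoidAlgebra K G)) := AddCommGroup.zmodModule (n := p) hpX
  let gens : Set (Matrix (Fin n) (Fin n) (MonoidAlgebra K G)) :=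
    Set.range fun f : π.ker => e * D (K := K) (n := n) (f : G)
  let W := Submodule.span (ZMod p) gens
  haveI : Module.Finite (ZMod p) W :=
    Module.Finite.span_of_finite (ZMod p) (Set.finite_range _)
  haveI : Finite W := Module.finite_of_finite (ZMod p)
  have hW : ∀ f : π.ker, ∀ x ∈ W, x * D (K := K) (n := n) (f : G) ∈ W := by
    intro f x hx
    induction hx using Submodule.span_induction with
    | mem y hy =>
      obtain ⟨f', rfl⟩ := hy
      refine Submodule.subset_span ⟨f' * f, ?_⟩
      simp only [Subgroup.coe_mul]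
      rw [mul_assoc, D_mul]
    | zero => simp
    | add a b _ _ ha hb => rw [add_mul]; exact W.add_mem ha hb
    | smul c a _ ha =>
      obtain ⟨k, rfl⟩ := ZMod.intCast_surjective c
      simp only [Int.cast_smul_eq_zsmul, smul_mul_assoc]
      exact zsmul_mem ha k
  have hWe : ∀ x ∈ W, e * x = x := by
    intro x hx
    induction hx using Submodule.span_induction with
    | mem y hy => obtain ⟨f', rfl⟩ := hy; rw [← mul_assoc, he]
    | zero => simp
    | add a b _ _ ha hb => rw [mul_add, ha, hb]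
    | smul c a _ ha =>
      obtain ⟨k, rfl⟩ := ZMod.intCast_surjective c
      simp only [Int.cast_smul_eq_zsmul, mul_smul_comm, ha]
  by_contra hne
  have heW : e ∈ W := by
    refine Submodule.subset_span ⟨1, ?_⟩
    simp [D_one]
  letI : MulAction π.ker W :=
    { smul := fun f x => ⟨(x : Matrix (Fin n) (Fin n) (MonoidAlgebra K G)) * D (K := K) (n := n) ((f⁻¹ : π.ker) : G), hW _ _ x.2⟩
      one_smul := fun x => Subtype.ext <| by
        change (x : Matrix (Fin n) (Fin n) (MonoidAlgebra K G)) * D (K := K) (n := n) ((1⁻¹ : π.ker) : G) = x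
        simp [D_one]
      mul_smul := fun f f' x => Subtype.ext <| by
        change (x : Matrix (Fin n) (Fin n) (MonoidAlgebra K G)) * D (K := K) (n := n) (((f * f')⁻¹ : π.ker) : G)
          = (x : Matrix (Fin n) (Fin n) (MonoidAlgebra K G)) * D (K := K) (n := n) ((f'⁻¹ : π.ker) : G) * D (K := K) (n := n) ((f⁻¹ : π.ker) : G)
        rw [mul_assoc, D_mul, ← Subgroup.coe_mul, mul_inv_rev] }
  have hcard : p ∣ Nat.card W := by
    have h1 : addOrderOf (⟨e, heW⟩ : W) = p :=
      addOrderOf_eq_prime (Subtype.ext (hpX e)) fun h => hne (congrArg Subtype.val h)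
    have h2 := addOrderOf_dvd_natCard (⟨e, heW⟩ : W)
    rwa [h1] at h2
  have hfix : (0 : W) ∈ MulAction.fixedPoints π.ker W := fun f => Subtype.ext <| by
    change (0 : Matrix (Fin n) (Fin n) (MonoidAlgebra K G)) * D (K := K) (n := n) ((f⁻¹ : π.ker) : G) = 0
    simp
  obtain ⟨v, hv, hv0⟩ := hp.exists_fixed_point_of_prime_dvd_card_of_fixed_point W hcard hfix
  refine hv0 (Subtype.ext ?_)
  have hvD : ∀ f ∈ π.ker, (v : Matrix (Fin n) (Fin n) (MonoidAlgebra K G)) * D (K := K) (n := n) f = v := fun f hf => by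
    have := congrArg Subtype.val (hv ⟨f⁻¹, inv_mem hf⟩)
    change (v : Matrix (Fin n) (Fin n) (MonoidAlgebra K G)) * D (K := K) (n := n) (((⟨f⁻¹, inv_mem hf⟩ : π.ker)⁻¹ : π.ker) : G) = v at this
    simpa using this
  change (0 : Matrix (Fin n) (Fin n) (MonoidAlgebra K G)) = v
  rw [← hWe _ v.2]
  refine (Matrix.ext fun i k => ?_).symm
  rw [Matrix.mul_apply]
  refine Finset.sum_eq_zero fun j _ => mul_eq_zero_of_invariant π _ _ ?_ fun h f hf => ?_
  · rw [← mm_apply, h0]; rfl
  · have := congrArg (fun A : Matrix (Fin n) (Fin n) (MonoidAlgebra K G) => (A j k).coeff h) (hvD f hf)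
    simpa [D, Matrix.mul_diagonal] using this

end Vale.Agent.P194
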