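import Vale.Agent.P194.Core

/-!
Stable finiteness of group algebras of extensions with p-group kernels.
-/

namespace Vale.Agent.P194

variable {K : Type} [Field K] {G : Type} [Group G] {n : ℕ}

lemma finite_group_df {F : Type} [Group F] [Finite F]
    (a b : Matrix (Fin n) (Fin n) (MonoidAlgebra K F)) (h : a * b = 1) : b * a = 1 := by
  haveI : Module.Finite K (MonoidAlgebra K F) := inferInstance
  let X := Matrix (Fin n) (Fin n) (MonoidAlgebra K F)
  haveI : FiniteDimensional K X := inferInstance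
  have hinj : Function.Injective (LinearMap.mulLeft K b) := fun x y hxy => by
    have := congrArg (a * ·) (show b * x = b * y from hxy)
    simpa [← mul_assoc, h] using this
  obtain ⟨c, hc⟩ := LinearMap.injective_iff_surjective.1 hinj 1
  have hc' : b * c = 1 := hc
  have : a = c := by rw [← mul_one a, ← hc', ← mul_assoc, h, one_mul]
  rw [this]; exact hc'

variable (p : ℕ) [Fact p.Prime] [CharP K p]

theorem stablyFinite_of_kernel {Q : Type} [Group Q] (π : G →* Q)
    (hker : ∀ T : Finset G, (∀ t ∈ T, π t = 1) →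
      ∃ F : Subgroup G, F.Normal ∧ Finite F ∧ IsPGroup p F ∧ ∀ t ∈ T, t ∈ F)
    (a b : Matrix (Fin n) (Fin n) (MonoidAlgebra K G))
    (hQ : ∀ a' b' : Matrix (Fin n) (Fin n) (MonoidAlgebra K Q), a' * b' = 1 → b' * a' = 1)
    (hab : a * b = 1) : b * a = 1 := by
  classical
  set e := 1 - b * a with he
  have hidem : e * e = e := by
    have : b * a * (b * a) = b * a := by rw [mul_assoc, ← mul_assoc a, hab, one_mul]
    rw [he, sub_mul, one_mul, mul_sub, mul_one, this]
    abel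
  have himg : mm π e = 0 := by
    have h1 : mm π a * mm π b = 1 := by rw [← map_mul, hab, map_one]
    rw [he, map_sub, map_one, map_mul, hQ _ _ h1, sub_self]
  let T := ((supp e ×ˢ supp e).image fun q => q.1⁻¹ * q.2).filter fun t => π t = 1
  obtain ⟨F, hFn, hFf, hFp, hT⟩ := hker T fun t ht => (Finset.mem_filter.1 ht).2
  haveI := hFn
  let q := QuotientGroup.mk' F
  have hq0 : mm q e = 0 := mm_eq_zero_of_factor π q e himg fun x hx y hy hxy => by
    refine QuotientGroup.eq.2 (hT _ (Finset.mem_filter.2 ⟨?_, ?_⟩))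
    · exact Finset.mem_image.2 ⟨(x, y), Finset.mem_product.2 ⟨hx, hy⟩, rfl⟩
    · simp [hxy]
  have hk : q.ker = F := QuotientGroup.ker_mk' F
  haveI : Finite q.ker := by rw [hk]; exact hFf
  have hqp : IsPGroup p q.ker := by rw [hk]; exact hFp
  have := idempotent_eq_zero p q hqp e hidem hq0
  exact (sub_eq_zero.1 this).symm

lemma finiteIndex_iInf' {ι : Type} [Finite ι] (H : ι → Subgroup G) (h : ∀ i, (H i).FiniteIndex) :
    (⨅ i, H i).FiniteIndex :=
  ⟨Subgroup.index_iInf_ne_zero fun i => (h i).index_ne_zero⟩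

theorem stablyFinite_of_residual
    (hres : ∀ g : G, g ≠ 1 → ∃ M N : Subgroup G, M.Normal ∧ N.Normal ∧ M ≤ N ∧ g ∉ M ∧
      M.relIndex N ≠ 0 ∧ (∀ x ∈ N, ∃ k : ℕ, x ^ p ^ k ∈ M) ∧
      ∀ x, x ∉ N → ∃ H : Subgroup G, H.Normal ∧ H.FiniteIndex ∧ N ≤ H ∧ x ∉ H)
    (a b : Matrix (Fin n) (Fin n) (MonoidAlgebra K G)) (hab : a * b = 1) : b * a = 1 := by
  classical
  set e := 1 - b * a with he
  have hidem : e * e = e := by
    have : b * a * (b * a) = b * a := by rw [mul_assoc, ← mul_assoc a, hab, one_mul]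
    rw [he, sub_mul, one_mul, mul_sub, mul_one, this]
    abel
  let T := ((supp e ×ˢ supp e).image fun q => q.1⁻¹ * q.2).filter fun t => t ≠ 1
  choose M N hM hN hle hgM hidx hpow hrf using
    fun t : T => hres t.1 (Finset.mem_filter.1 t.2).2
  let M' := ⨅ t, M t
  let N' := ⨅ t, N t
  haveI hM' : M'.Normal := Subgroup.normal_iInf_normal hM
  haveI hN' : N'.Normal := Subgroup.normal_iInf_normal hN
  have hsep : ∀ x ∈ supp e, ∀ y ∈ supp e, x⁻¹ * y ∈ M' → x = y := by
    intro x hx y hy hxy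
    by_contra hne
    have ht : x⁻¹ * y ∈ T := Finset.mem_filter.2
      ⟨Finset.mem_image.2 ⟨(x, y), Finset.mem_product.2 ⟨hx, hy⟩, rfl⟩,
        fun h => hne (inv_mul_eq_one.1 h)⟩
    exact hgM ⟨_, ht⟩ (Subgroup.mem_iInf.1 hxy _)
  -- image in K[G/N'] vanishes, by finite quotients
  have hN0 : mm (QuotientGroup.mk' N') e = 0 := by
    let T₂ := ((supp e ×ˢ supp e).image fun q => q.1⁻¹ * q.2).filter fun t => t ∉ N'
    have hH : ∀ t : T₂, ∃ H : Subgroup G, H.Normal ∧ H.FiniteIndex ∧ N' ≤ H ∧ t.1 ∉ H := by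
      intro t
      obtain ⟨i, hi⟩ : ∃ i, t.1 ∉ N i := by
        by_contra h
        push_neg at h
        exact (Finset.mem_filter.1 t.2).2 (Subgroup.mem_iInf.2 h)
      obtain ⟨H, h1, h2, h3, h4⟩ := hrf i t.1 hi
      exact ⟨H, h1, h2, (iInf_le N i).trans h3, h4⟩
    choose H hHn hHf hHle hHt using hH
    haveI : (⨅ t, H t).Normal := Subgroup.normal_iInf_normal hHn
    haveI := finiteIndex_iInf' H hHf
    let q := QuotientGroup.mk' (⨅ t, H t)
    have h0 : mm q e = 0 := by
      have h1 : mm q a * mm q b = 1 := by rw [← map_mul, hab, map_one]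
      rw [he, map_sub, map_one, map_mul, finite_group_df _ _ h1, sub_self]
    refine mm_eq_zero_of_factor q _ e h0 fun x hx y hy hxy => ?_
    refine QuotientGroup.eq.2 ?_
    by_contra hne
    have ht : x⁻¹ * y ∈ T₂ := Finset.mem_filter.2
      ⟨Finset.mem_image.2 ⟨(x, y), Finset.mem_product.2 ⟨hx, hy⟩, rfl⟩, hne⟩
    exact hHt ⟨_, ht⟩ (Subgroup.mem_iInf.1 (QuotientGroup.eq.1 hxy) _)
  -- hence the image in K[G/M'] vanishes
  let q₁ := QuotientGroup.mk' M'
  let q₂ : G ⧸ M' →* G ⧸ N' := QuotientGroup.map M' N' (MonoidHom.id G) (iInf_mono hle)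
  have hcomp : mm q₂ (mm q₁ e) = 0 := by
    refine Matrix.ext fun i j => MonoidAlgebra.coeff_injective ?_
    rw [mm_apply, mm_apply, ← Finsupp.mapDomain_comp]
    have : (q₂ ∘ q₁ : G → G ⧸ N') = QuotientGroup.mk' N' := rfl
    rw [this, ← mm_apply, hN0]
  have hkmem : ∀ z : q₂.ker, ∃ x ∈ N', q₁ x = z.1 := by
    rintro ⟨z, hz⟩
    obtain ⟨x, rfl⟩ := QuotientGroup.mk'_surjective M' z
    exact ⟨x, (QuotientGroup.eq_one_iff x).1 hz, rfl⟩
  haveI : Finite q₂.ker := by
    have hne : M'.relIndex N' ≠ 0 := by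
      refine Subgroup.relIndex_iInf_ne_zero fun t => ?_
      exact fun h => hidx t (Subgroup.relIndex_eq_zero_of_le_right (iInf_le N t) h)
    haveI : Finite (N' ⧸ M'.subgroupOf N') := Nat.finite_of_card_ne_zero hne
    choose x hx hxz using hkmem
    refine Finite.of_injective
      (fun z => ((⟨x z, hx z⟩ : N') : N' ⧸ M'.subgroupOf N')) fun z w hzw => Subtype.ext ?_
    rw [← hxz z, ← hxz w]
    have h : ((⟨x z, hx z⟩ : N') : N' ⧸ M'.subgroupOf N')
        = ((⟨x w, hx w⟩ : N') : N' ⧸ M'.subgroupOf N') := hzw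
    rw [QuotientGroup.eq, Subgroup.mem_subgroupOf] at h
    exact QuotientGroup.eq.2 (by simpa using h)
  have hqp : IsPGroup p q₂.ker := by
    intro z
    obtain ⟨x, hx, hxz⟩ := hkmem z
    choose k hk using fun t => hpow t x (Subgroup.mem_iInf.1 hx t)
    refine ⟨∑ t, k t, Subtype.ext ?_⟩
    rw [Subgroup.coe_pow, ← hxz, ← map_pow, Subgroup.coe_one]
    refine (QuotientGroup.eq_one_iff _).2 (Subgroup.mem_iInf.2 fun t => ?_)
    obtain ⟨c, hc⟩ := pow_dvd_pow p (Finset.single_le_sum (fun i _ => Nat.zero_le (k i))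
      (Finset.mem_univ t))
    rw [hc, pow_mul]
    exact pow_mem (hk t) c
  have hM0 : mm q₁ e = 0 := idempotent_eq_zero p q₂ hqp _ (by rw [← map_mul, hidem]) hcomp
  have hid := mm_eq_zero_of_factor q₁ (MonoidHom.id G) e hM0
    fun x hx y hy hxy => hsep x hx y hy (QuotientGroup.eq.1 hxy)
  exact (sub_eq_zero.1 (eq_zero_of_mm_id e hid)).symm

end Vale.Agent.P194
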